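import Mathlib

/-! P093: mean dimension, crossed products by the integers, radius of comparison. -/

open Filter Topology Set
open scoped ENNReal NNReal ComplexOrder

namespace Vale.Agent.P093

section Dyn

variable {X : Type} [TopologicalSpace X]

/-- Finite open covers. -/
def IsCover (𝒱 : Finset (Set X)) : Prop := (∀ V ∈ 𝒱, IsOpen V) ∧ ∀ x, ∃ V ∈ 𝒱, x ∈ V

/-- One less than the largest number of members with a common point. -/
noncomputable def ord (𝒱 : Finset (Set X)) : ℕ :=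
  sSup {k | ∃ 𝒮 ⊆ 𝒱, (∃ x, ∀ V ∈ 𝒮, x ∈ V) ∧ 𝒮.card = k} - 1

/-- The least order of a finite open refinement. -/
noncomputable def covD (𝒱 : Finset (Set X)) : ℕ :=
  sInf {k | ∃ 𝒲 : Finset (Set X), IsCover 𝒲 ∧ (∀ W ∈ 𝒲, ∃ V ∈ 𝒱, W ⊆ V) ∧ ord 𝒲 = k}

open Classical in
/-- The join of the preimages of a cover under the first `N` iterates. -/
noncomputable def join (h : X ≃ₜ X) (𝒰 : Finset (Set X)) (N : ℕ) : Finset (Set X) :=
  (Fintype.piFinset fun _ : Fin N => 𝒰).image fun U => ⋂ j : Fin N, h^[j] ⁻¹' U j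

/-- Mean dimension. -/
noncomputable def mdim (h : X ≃ₜ X) : ℝ≥0∞ :=
  ⨆ 𝒰 : {𝒰 : Finset (Set X) // IsCover 𝒰},
    limsup (fun N : ℕ => (covD (join h 𝒰.1 N) : ℝ≥0∞) / N) atTop

/-- Every orbit is dense. -/
def IsMinimal (h : X ≃ₜ X) : Prop := ∀ x, Dense (range fun n : ℤ => (h ^ n) x)

/-- The itinerary of `e` identifies `X` with a subshift over `P` of block type with density `ρ`. -/
structure Block (h : X ≃ₜ X) {M : ℕ} (P : Set (Fin M → ℝ)) (e : C(X, Fin M → ℝ)) (ρ : ℝ) :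
    Prop where
  mem : ∀ x, e x ∈ P
  inj : ∀ x x', (∀ n : ℤ, e ((h ^ n) x) = e ((h ^ n) x')) → x = x'
  upper : ∀ ε : ℝ, 0 < ε → ∃ (F : Finset (Fin M → ℝ)) (N₀ : ℕ), ∀ N, N₀ ≤ N → ∀ x,
    ({j : ℕ | j < N ∧ e (h^[j] x) ∉ F}.ncard : ℝ) ≤ (ρ + ε) * N
  lower : ∀ ε : ℝ, 0 < ε → ∀ N₀ : ℕ, ∃ N : ℕ, N₀ ≤ N ∧ ∃ J : Finset ℤ, J ⊆ Finset.Ico 0 (N : ℤ) ∧
    (ρ - ε) * N ≤ J.card ∧ ∃ z : ℤ → Fin M → ℝ, ∀ w : ℤ → Fin M → ℝ, (∀ n ∈ J, w n ∈ P) →
      (∀ n ∉ J, w n = z n) → ∃ x, ∀ n : ℤ, e ((h ^ n) x) = w n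

/-- The multiplication operators and the shift of the regular representation, on a Hilbert space
with an orthonormal basis indexed by `X × ℤ`. -/
def regGens (h : X ≃ₜ X) {H : Type} [NormedAddCommGroup H] [InnerProductSpace ℂ H]
    (b : HilbertBasis (X × ℤ) ℂ H) : Set (H →L[ℂ] H) :=
  {T | ∃ f : C(X, ℂ), ∀ p : X × ℤ, T (b p) = f ((h ^ p.2) p.1) • b p} ∪
    {T | ∀ p : X × ℤ, T (b p) = b (p.1, p.2 + 1)}

/-- `j` is injective with range the closed star subalgebra generated by `S`. -/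
def IsGen {A B : Type} [CStarAlgebra A] [CStarAlgebra B] (j : A →⋆ₐ[ℂ] B) (S : Set B) : Prop :=
  Function.Injective j ∧ range j = closure (StarAlgebra.adjoin ℂ S : Set B)

end Dyn

/-- The `m`-th root, by the continuous functional calculus. -/
noncomputable def root {B : Type} [CStarAlgebra B] (m : ℕ) (a : B) : B :=
  cfc (fun t : ℝ => t ^ (m : ℝ)⁻¹) a

section Cmp

variable {A : Type} [CStarAlgebra A] [PartialOrder A] [StarOrderedRing A]

/-- Tracial states. -/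
structure IsTrace (τ : A →ₗ[ℂ] ℂ) : Prop where
  one : τ 1 = 1
  pos : ∀ a, 0 ≤ τ (star a * a)
  comm : ∀ a b, τ (a * b) = τ (b * a)

/-- The dimension function of a tracial state. -/
noncomputable def dimFn (τ : A →ₗ[ℂ] ℂ) {p : ℕ} (a : CStarMatrix (Fin p) (Fin p) A) : ℝ :=
  limUnder atTop fun m : ℕ => (∑ i, τ (root m a i i)).re

/-- Cuntz subequivalence. -/
def Cuntz {p q : ℕ} (a : CStarMatrix (Fin p) (Fin p) A) (b : CStarMatrix (Fin q) (Fin q) A) :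
    Prop :=
  ∃ x : ℕ → CStarMatrix (Fin q) (Fin p) A,
    Tendsto (fun n => ‖(x n).conjTranspose * b * x n - a‖) atTop (𝓝 0)

variable (A) in
/-- Comparison bounds. -/
def CompBound (r : ℝ) : Prop :=
  ∀ (p q : ℕ) (a : CStarMatrix (Fin p) (Fin p) A) (b : CStarMatrix (Fin q) (Fin q) A),
    0 ≤ a → 0 ≤ b → (∀ τ : A →ₗ[ℂ] ℂ, IsTrace τ → dimFn τ a + r < dimFn τ b) → Cuntz a b

variable (A) in
/-- The radius of comparison. -/
noncomputable def rc : ℝ≥0∞ := ⨅ r : {r : ℝ≥0 // CompBound A r}, (r.1 : ℝ≥0∞)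

end Cmp

end Vale.Agent.P093
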